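import Mathlib.Data.ZMod.Basic
import Mathlib.Data.Nat.Size
import Mathlib.Data.Nat.Prime.Defs

/-!
P319, number theory: the statement which the algorithm uses.
-/

namespace Vale.Agent.P319.NT

/-- For primes `r`, `p` there is a prime `l ≡ 1 (mod 2 r)`, of size polynomial in `r` and the
length of `p`, modulo which `p` is not an `r`-th power. -/
def SmallPrime : Prop := ∃ C : ℕ, ∀ r p : ℕ, r.Prime → p.Prime →
  ∃ l : ℕ, l.Prime ∧ l ≤ (r + Nat.size p) ^ C ∧ l ≠ r ∧ l ≠ p ∧ 2 * r ∣ l - 1 ∧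
    (p : ZMod l) ^ ((l - 1) / r) ≠ 1

end Vale.Agent.P319.NT
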