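import Vale.Agent.P319.NT.Cond
import Vale.Agent.P016Z.Pois.Hecke
import Vale.Agent.P016Z.Cheb.MuInv
import Vale.Agent.P016Z.Cheb.NonVan
import Vale.Agent.P016Z.Cheb.ExpLog
import Vale.Agent.P016Z.Inst.Mub

/-!
P319, number theory: the small auxiliary prime, unconditionally.
-/

namespace Vale.Agent.P319.NT

open Vale.Agent.P016Z

theorem smallPrime : SmallPrime :=
  smallPrime_of (θ := 11 / 12) (by norm_num) (by norm_num) hcont hbd expLog
    (nonVan (by norm_num) (by norm_num) hcont expLog muInv spl12 mub)

end Vale.Agent.P319.NT
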