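import Vale.Agent.P016Z.Cheb.Gauss
import Mathlib.MeasureTheory.Integral.Prod
import Mathlib.Analysis.SpecialFunctions.ImproperIntegrals

/-!
P319, number theory: an asymptotic formula for smoothed prime sums, from a zero free half plane.
-/

namespace Vale.Agent.P319.NT

open Complex Metric Set Topology MeasureTheory Vale.Agent.P016Z.Cheb
open Filter hiding ker

/-- the weight -/
noncomputable def wt (u : ℝ) (n : ℕ) : ℝ :=
  Real.sqrt Real.pi * Real.exp (-(u - Real.log n) ^ 2 / 4)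

theorem wt_nonneg (u : ℝ) (n : ℕ) : 0 ≤ wt u n := by unfold wt; positivity

theorem sqrt_pi_le : Real.sqrt Real.pi ≤ 2 := by
  rw [Real.sqrt_le_iff]
  constructor
  · norm_num
  · linarith [Real.pi_lt_d2]

theorem wt_le (u : ℝ) (n : ℕ) : wt u n ≤ 2 := by
  unfold wt
  have h1 : Real.exp (-(u - Real.log n) ^ 2 / 4) ≤ 1 :=
    Real.exp_le_one_iff.2 (by nlinarith [sq_nonneg (u - Real.log n)])
  calc Real.sqrt Real.pi * Real.exp (-(u - Real.log n) ^ 2 / 4) ≤ 2 * 1 :=
        mul_le_mul sqrt_pi_le h1 (Real.exp_pos _).le (by norm_num)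
    _ = 2 := by norm_num

/-- the main term -/
noncomputable def mainTerm (u : ℝ) : ℝ :=
  (∫ t : ℝ, (((2 : ℝ) : ℂ) + t * I - 1)⁻¹ * ker u ((2 : ℝ) + t * I)).re

theorem pole_integrable {u : ℝ} :
    Integrable fun t : ℝ => (((2 : ℝ) : ℂ) + t * I - 1)⁻¹ * ker u ((2 : ℝ) + t * I) := by
  have k0 : ∀ t : ℝ, 1 ≤ ‖((2 : ℝ) : ℂ) + t * I - 1‖ := fun t => by
    refine le_trans (le_of_eq ?_) (re_le_norm _)
    simp
    norm_num
  refine (line_bound (f := fun t : ℝ => (((2 : ℝ) : ℂ) + t * I - 1)⁻¹ * ker u ((2 : ℝ) + t * I))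
    (D := 1 * (Real.exp (u * 2) * Real.exp 5))
    (Continuous.mul (Continuous.inv₀ (by fun_prop) fun t => ?_) ?_) fun t => ?_).1
  · exact norm_pos_iff.1 (one_pos.trans_le (k0 t))
  · unfold ker
    fun_prop
  · have k1 := norm_ker_le u ((2 : ℝ) + t * I) (by simp) (by simp)
    have k2 : ‖(((2 : ℝ) : ℂ) + t * I - 1)⁻¹‖ ≤ 1 := by
      rw [norm_inv]
      exact inv_le_one_of_one_le₀ (k0 t)
    have k3 := le_mul_of_one_le_left (norm_nonneg (ker u ((2 : ℝ) + t * I)))
      (show 1 ≤ 1 + |(((2 : ℝ) : ℂ) + t * I).im| by simp)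
    rw [norm_mul, mul_assoc 1]
    refine mul_le_mul k2 (k3.trans (k1.trans (le_of_eq ?_))) (norm_nonneg _) (by positivity)
    simp

/-- **The smoothed sum of the coefficients of the logarithm of a function without zeros.** -/
theorem exists_asym {θ : ℝ} (hθ0 : 0 ≤ θ) (hθ : θ < 1) : ∃ C : ℝ, 0 ≤ C ∧
    ∀ (a : ℕ → ℝ) (S : ℝ) (g : ℂ → ℂ), 1 ≤ S → (∀ n, 0 ≤ a n) → (∀ n, a n ≤ S) →
      DifferentiableOn ℂ g {s | θ < s.re} → (∀ s : ℂ, θ < s.re → g s ≠ 0) →
      (∀ s : ℂ, 1 < s.re → g s = (s - 1) * exp (LSeries (fun n => (a n : ℂ)) s)) →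
      (∀ s : ℂ, θ < s.re → s.re ≤ 2 → ‖g s‖ ≤ Real.exp (S * (1 + |s.im|))) →
      ∀ u : ℝ, 0 ≤ u → ∃ T : ℝ, HasSum (fun n : ℕ => Real.log n * a n * wt u n) T ∧
        |T - mainTerm u| ≤ C * S * Real.exp (u * ((1 + θ) / 2)) := by
  set B : ℝ := 16 * (3 + 2 * Z) / ((1 - θ) / 2) ^ 2 with hB
  have hZ := Z_nonneg
  have hJ := J_nonneg
  have hB0 : 0 ≤ B := by positivity
  refine ⟨B * Real.exp 5 * J, by positivity, fun a S g hS1 ha0 haS hg h0 h1 h2 u hu0 => ?_⟩
  set c : ℝ := 2 with hc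
  have hc1 : 1 < c := by norm_num [hc]
  have hc2 : c ≤ 2 := le_rfl
  set σ : ℝ := (1 + θ) / 2 with hσ
  have hσ1 : σ < 1 := by linarith
  have hσθ : θ < σ := by linarith
  have habs : LSeries.abscissaOfAbsConv (fun n => (a n : ℂ)) ≤ 1 :=
    LSeries.abscissaOfAbsConv_le_of_le_const ⟨S, fun n _ => by
      rw [norm_real, Real.norm_eq_abs, abs_of_nonneg (ha0 n)]; exact haS n⟩
  have habs' : ∀ s : ℂ, 1 < s.re → LSeries.abscissaOfAbsConv (fun n => (a n : ℂ)) < s.re :=
    fun s hs => habs.trans_lt (by exact_mod_cast hs)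
  have hlm : LSeries.logMul (fun n => (a n : ℂ)) = fun n : ℕ => ((Real.log n * a n : ℝ) : ℂ) := by
    funext n
    rw [LSeries.logMul, ofReal_mul, natCast_log]
  have hA : ∀ s : ℂ, 1 < s.re →
      LSeries (fun n : ℕ => ((Real.log n * a n : ℝ) : ℂ)) s = (s - 1)⁻¹ - logDeriv g s := by
    intro s hs
    have hs1 : s - 1 ≠ 0 := fun h => by
      have := congrArg re h
      simp at this
      linarith
    have k1 := ((hasDerivAt_id s).sub_const 1).mul (LSeries_hasDerivAt (habs' s hs)).cexp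
    have k2 : g =ᶠ[𝓝 s] fun s => (s - 1) * exp (LSeries (fun n => (a n : ℂ)) s) := by
      filter_upwards [(isOpen_lt continuous_const continuous_re).mem_nhds hs] with z hz
      exact h1 z hz
    have k3 := (k1.congr_of_eventuallyEq k2).deriv
    rw [logDeriv_apply, k3, h1 s hs, hlm]
    have := exp_ne_zero (LSeries (fun n => (a n : ℂ)) s)
    simp only [id]
    field_simp
    ring
  have hopen : IsOpen {s : ℂ | θ < s.re} := isOpen_lt continuous_const continuous_re
  have hld : ∀ s : ℂ, θ < s.re → DifferentiableAt ℂ (fun s => logDeriv g s * ker u s) s := by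
    intro s hs
    have k1 : DifferentiableOn ℂ (logDeriv g) {s : ℂ | θ < s.re} := (hg.deriv hopen).div hg h0
    refine (k1.differentiableAt (hopen.mem_nhds hs)).mul ?_
    unfold ker
    fun_prop
  have hbd : ∀ s : ℂ, σ ≤ s.re → s.re ≤ 2 → ‖logDeriv g s * ker u s‖ ≤
      B * S * (Real.exp (u * s.re) * Real.exp 5) * Real.exp (-(1 / 2) * s.im ^ 2) := by
    intro s k1 k2
    have k3 := strip_bound hθ0 hθ hS1 (fun s hs => norm_LSeries_le ha0 haS hs) hg h0 h1 h2 k1 k2
    have k4 := norm_ker_le u s (by linarith) k2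
    rw [norm_mul]
    calc ‖logDeriv g s‖ * ‖ker u s‖ ≤ B * S * (1 + |s.im|) * ‖ker u s‖ :=
          mul_le_mul_of_nonneg_right k3 (norm_nonneg _)
      _ = B * S * ((1 + |s.im|) * ‖ker u s‖) := by ring
      _ ≤ _ := by rw [mul_assoc (B * S)]; gcongr
  have hline : ∀ x : ℝ, σ ≤ x → x ≤ 2 →
      (Integrable fun t : ℝ => logDeriv g (x + t * I) * ker u (x + t * I)) ∧
      ‖∫ t : ℝ, logDeriv g (x + t * I) * ker u (x + t * I)‖ ≤
        B * S * (Real.exp (u * x) * Real.exp 5) * J := by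
    intro x k1 k2
    refine line_bound (continuous_iff_continuousAt.2 fun t => ?_) fun t => ?_
    · exact ContinuousAt.comp (g := fun s => logDeriv g s * ker u s)
        (f := fun t : ℝ => (x : ℂ) + t * I)
        (hld _ (by simpa using hσθ.trans_le k1)).continuousAt (by fun_prop)
    · simpa using hbd (x + t * I) (by simpa using k1) (by simpa using k2)
  have hshift := P026Z.Vor.shift_of_decay (F := fun s => logDeriv g s * ker u s) (σ0 := σ)
    (σ1 := c) (by linarith) (fun s k1 _ => hld s (hσθ.trans_le k1))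
    (g := fun T => B * S * (Real.exp (u * 2) * Real.exp 5) * Real.exp (-(1 / 2) * T ^ 2))
    (by
      have k1 : Tendsto (fun T : ℝ => -(1 / 2) * T ^ 2) atTop atBot :=
        (tendsto_pow_atTop two_ne_zero).const_mul_atTop_of_neg (by norm_num)
      simpa using (Real.tendsto_exp_atBot.comp k1).const_mul
        (B * S * (Real.exp (u * 2) * Real.exp 5)))
    (fun s k1 k2 _ => (hbd s k1 (k2.trans hc2)).trans (by
      rw [sq_abs]
      have : u * s.re ≤ u * 2 := by gcongr
      gcongr))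
    (hline σ le_rfl (by linarith)).1 (hline c (by linarith) hc2).1
  have hsum := hasSum_ker (fun n : ℕ => Real.log n * a n) (by simp) u c (by
    rw [← hlm]
    exact LSeriesSummable_logMul_of_lt_re (habs' c (by simpa using hc1)))
  have e1 : ∫ t : ℝ, LSeries (fun n : ℕ => ((Real.log n * a n : ℝ) : ℂ)) (c + t * I) *
      ker u (c + t * I) = (∫ t : ℝ, ((c : ℂ) + t * I - 1)⁻¹ * ker u (c + t * I)) -
        ∫ t : ℝ, logDeriv g (σ + t * I) * ker u (σ + t * I) := by
    rw [hshift, ← integral_sub pole_integrable (hline c (by linarith) hc2).1]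
    refine integral_congr_ae (ae_of_all _ fun t => ?_)
    beta_reduce
    rw [hA _ (by simpa using hc1), sub_mul]
  refine ⟨_, hsum, ?_⟩
  rw [e1, sub_re, mainTerm, sub_sub_cancel_left, abs_neg]
  refine (abs_re_le_norm _).trans ((hline σ le_rfl (by linarith)).2.trans (le_of_eq ?_))
  ring

/-- The main term as a real integral. -/
theorem mainTerm_eq (u : ℝ) : mainTerm u =
    ∫ x in Ioi (0 : ℝ), Real.exp x * (Real.sqrt Real.pi * Real.exp (-(u - x) ^ 2 / 4)) := by
  have h1 : ∀ t : ℝ, (((2 : ℝ) : ℂ) + t * I - 1)⁻¹ * ker u ((2 : ℝ) + t * I) =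
      ∫ x in Ioi (0 : ℝ), cexp (-(((2 : ℝ) : ℂ) + t * I - 1) * x) * ker u ((2 : ℝ) + t * I) := by
    intro t
    rw [integral_mul_const, integral_exp_mul_complex_Ioi (by norm_num)]
    simp only [ofReal_zero, mul_zero, exp_zero, neg_div_neg_eq, one_div]
  have h2 : ∀ (x t : ℝ), cexp (-(((2 : ℝ) : ℂ) + t * I - 1) * x) * ker u ((2 : ℝ) + t * I) =
      (Real.exp x : ℂ) * ker (u - x) ((2 : ℝ) + t * I) := by
    intro x t
    rw [ker, ker, ofReal_exp, ← exp_add, ← exp_add]
    congr 1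
    push_cast
    ring
  have hint : Integrable (Function.uncurry fun (t x : ℝ) =>
      cexp (-(((2 : ℝ) : ℂ) + t * I - 1) * x) * ker u ((2 : ℝ) + t * I))
      ((volume : Measure ℝ).prod (volume.restrict (Ioi (0 : ℝ)))) := by
    have g1 : Integrable fun t : ℝ => Real.exp (u * 2 + 4) * Real.exp (-1 * t ^ 2) :=
      (integrable_exp_neg_mul_sq (show (0 : ℝ) < 1 by norm_num)).const_mul _
    have g2 : Integrable (fun x : ℝ => Real.exp (-x)) (volume.restrict (Ioi (0 : ℝ))) :=
      integrableOn_exp_neg_Ioi 0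
    refine (g1.mul_prod g2).mono' ?_ (ae_of_all _ fun z => le_of_eq ?_)
    · refine Continuous.aestronglyMeasurable ?_
      unfold ker Function.uncurry
      fun_prop
    · obtain ⟨t, x⟩ := z
      simp only [Function.uncurry_apply_pair]
      rw [norm_mul, norm_ker, norm_exp, ← Real.exp_add, ← Real.exp_add, ← Real.exp_add]
      congr 1
      simp
      ring
  rw [mainTerm]
  simp only [h1]
  rw [integral_integral_swap hint]
  simp only [h2, integral_const_mul, integral_ker, ← ofReal_mul]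
  rw [integral_complex_ofReal, ofReal_re]

theorem le_mainTerm {u : ℝ} (hu : 0 ≤ u) : Real.exp u ≤ mainTerm u := by
  rw [mainTerm_eq]
  have hint : IntegrableOn (fun x : ℝ =>
      Real.exp x * (Real.sqrt Real.pi * Real.exp (-(u - x) ^ 2 / 4))) (Ioi (0 : ℝ)) := by
    refine Integrable.integrableOn ?_
    have g1 := (integrable_exp_neg_mul_sq (show (0 : ℝ) < 1 / 4 by norm_num)).comp_sub_right (u + 2)
    refine (g1.const_mul (Real.sqrt Real.pi * Real.exp (u + 1))).congr (ae_of_all _ fun x => ?_)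
    beta_reduce
    rw [mul_assoc, ← Real.exp_add, mul_left_comm, ← Real.exp_add]
    congr 2
    ring
  have h1 : ∫ x in Ioc u (u + 1), Real.exp x * (Real.sqrt Real.pi * Real.exp (-(u - x) ^ 2 / 4)) ≤
      ∫ x in Ioi (0 : ℝ), Real.exp x * (Real.sqrt Real.pi * Real.exp (-(u - x) ^ 2 / 4)) := by
    refine setIntegral_mono_set hint (ae_of_all _ fun x => by positivity) ?_
    refine LE.le.eventuallyLE fun x hx => ?_
    exact hu.trans_lt hx.1
  refine le_trans ?_ h1
  have h2 : ∫ _ in Ioc u (u + 1), Real.exp u = Real.exp u := by simp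
  rw [← h2]
  refine setIntegral_mono_on (by simp) (hint.mono_set fun x hx => hu.trans_lt hx.1)
    measurableSet_Ioc fun x hx => ?_
  have k1 : Real.exp u ≤ Real.exp x := Real.exp_le_exp.2 hx.1.le
  have k2 : (3 / 4 : ℝ) ≤ Real.exp (-(u - x) ^ 2 / 4) := by
    have := Real.add_one_le_exp (-(u - x) ^ 2 / 4)
    nlinarith [hx.1, hx.2]
  have k3 : (3 / 2 : ℝ) ≤ Real.sqrt Real.pi := by
    rw [Real.le_sqrt (by norm_num) Real.pi_pos.le]
    linarith [Real.pi_gt_three]
  calc Real.exp u = Real.exp u * 1 := (mul_one _).symm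
    _ ≤ Real.exp x * (Real.sqrt Real.pi * Real.exp (-(u - x) ^ 2 / 4)) := by
        refine mul_le_mul k1 ?_ zero_le_one (Real.exp_pos _).le
        nlinarith

/-- the weight is small far to the right -/
theorem log_mul_wt_le {u : ℝ} (hu : 24 ≤ u) {n : ℕ} (hn : Real.exp (2 * u) < n) :
    Real.log n * wt u n ≤ 2 * (1 / (n : ℝ) ^ 2) := by
  have hn0 : (0 : ℝ) < n := (Real.exp_pos _).trans hn
  have h1 : 2 * u ≤ Real.log n := by
    rw [Real.le_log_iff_exp_le hn0]
    exact hn.le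
  have h2 : Real.exp (-(u - Real.log n) ^ 2 / 4) ≤ Real.exp (-(3 * Real.log n)) :=
    Real.exp_le_exp.2 (by nlinarith)
  have h3 : Real.exp (-(3 * Real.log n)) = 1 / (n : ℝ) ^ 3 := by
    rw [Real.exp_neg, show 3 * Real.log n = Real.log ((n : ℝ) ^ 3) by
      rw [Real.log_pow]; norm_num, Real.exp_log (by positivity), one_div]
  have h4 : Real.log n ≤ n := (Real.log_le_sub_one_of_pos hn0).trans (by linarith)
  have h5 : 0 ≤ Real.log n := Real.log_natCast_nonneg n
  unfold wt
  calc Real.log n * (Real.sqrt Real.pi * Real.exp (-(u - Real.log n) ^ 2 / 4))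
      ≤ n * (2 * (1 / (n : ℝ) ^ 3)) := by
        rw [← h3]
        exact mul_le_mul h4 (mul_le_mul sqrt_pi_le h2 (Real.exp_pos _).le (by norm_num))
          (by positivity) hn0.le
    _ = 2 * (1 / (n : ℝ) ^ 2) := by field_simp

end Vale.Agent.P319.NT
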