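import Vale.Agent.P319.NT.Asym
import Vale.Agent.P016Z.Cheb.Cheb

/-!
P319, number theory: two fields cannot have proportional counts of primes of degree one up to a
power of their sizes.
-/

namespace Vale.Agent.P319.NT

open NumberField Vale.Agent.P016Z

/-- the number of primes of norm `n`, for a rational prime `n` -/
noncomputable def pc (K : Type) [Field K] [NumberField K] (n : ℕ) : ℝ :=
  if n.Prime then (aK K n : ℝ) else 0

theorem pc_nonneg (K : Type) [Field K] [NumberField K] (n : ℕ) : 0 ≤ pc K n := by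
  unfold pc
  split_ifs <;> positivity

theorem pc_le (K : Type) [Field K] [NumberField K] (n : ℕ) : pc K n ≤ Module.finrank ℚ K := by
  unfold pc
  split_ifs with hn
  · exact_mod_cast Cheb.aK_le K hn
  · positivity

theorem field_asym {θ : ℝ} (h1 : 3 / 4 ≤ θ) (h2 : θ < 1) (hC : HCONT) (hB : HBD) (hE : EXPLOG)
    (hN : NONVAN θ) : ∃ C : ℝ, 0 ≤ C ∧ ∀ (K : Type) [Field K] [NumberField K] [IsTotallyComplex K]
      (u : ℝ), 0 ≤ u → ∃ T : ℝ, HasSum (fun n : ℕ => Real.log n * pc K n * wt u n) T ∧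
        |T - mainTerm u| ≤ C * size K * Real.exp (u * ((1 + θ) / 2)) := by
  obtain ⟨C₁, hB⟩ := hB
  obtain ⟨C₂, hE⟩ := hE
  obtain ⟨C, hC0, H⟩ := exists_asym (show 0 ≤ θ by linarith) h2
  set D : ℝ := |C₁| + |C₂| + 1 with hD
  have hD1 : 1 ≤ D := by linarith [abs_nonneg C₁, abs_nonneg C₂]
  refine ⟨C * D, by positivity, fun K _ _ _ u hu => ?_⟩
  obtain ⟨F, hF⟩ := hC K 1 one_ne_zero (fun _ => 1) fun _ => rfl
  obtain ⟨h, hh1, hh2, hh3⟩ := hE K 1 fun n => by simp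
  have hn1 : (1 : ℝ) ≤ Module.finrank ℚ K := by exact_mod_cast Module.finrank_pos
  have hn2 := Cheb.finrank_le_size K
  have hsub : {s : ℂ | θ < s.re} ⊆ {s : ℂ | 3 / 4 < s.re} := fun s hs => h1.trans_lt hs
  have hP : ∀ s, PK K (1 : ℕ →* ℂ) s = LSeries (fun n => ((pc K n : ℝ) : ℂ)) s := by
    intro s
    unfold PK pc
    congr 1
    funext n
    split_ifs <;> simp
  obtain ⟨T, hT1, hT2⟩ := H (pc K) (D * size K)
    (fun s => F s * Complex.exp (-h s)) (by nlinarith) (pc_nonneg K)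
    (fun n => by
      have := pc_le K n
      nlinarith)
    ((hF.1.mono hsub).mul (hh1.mono hsub).neg.cexp)
    (fun s hs => mul_ne_zero (hN K F hF s hs) (Complex.exp_ne_zero _))
    (fun s hs => by
      have e : LK K (fun _ => 1) s = Complex.exp (PK K (1 : ℕ →* ℂ) s + h s) := hh3 s hs
      rw [hF.2 s hs, e, mul_assoc, ← Complex.exp_add, add_neg_cancel_right, hP])
    (fun s hs hs' => by
      have k1 := hB K F hF s (hsub hs) hs'
      have k2 := hh2 s (hsub hs)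
      rw [norm_mul, Complex.norm_exp]
      refine (mul_le_mul_of_nonneg_right k1 (Real.exp_pos _).le).trans ?_
      rw [← Real.exp_add]
      refine Real.exp_le_exp.2 ?_
      have k3 := (Complex.re_le_norm (-h s)).trans ((norm_neg _).trans_le k2)
      have k4 := abs_nonneg s.im
      have k5 : size K ≤ size K * (1 + |s.im|) := by nlinarith
      have k6 : C₁ * (size K * (1 + |s.im|)) ≤ |C₁| * (size K * (1 + |s.im|)) :=
        mul_le_mul_of_nonneg_right (le_abs_self _) (by linarith)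
      have k7 : C₂ * Module.finrank ℚ K ≤ |C₂| * (size K * (1 + |s.im|)) :=
        mul_le_mul (le_abs_self _) (by linarith) (by linarith) (abs_nonneg _)
      rw [hD]
      nlinarith) u hu
  exact ⟨T, hT1, by rw [mul_assoc C D]; exact hT2⟩

theorem final_ineq {C Zc S d e M TK TL A : ℝ} (hC0 : 0 ≤ C) (hZ : 0 ≤ Zc) (hS1 : 1 ≤ S)
    (hd2 : 2 ≤ d) (hdS : d ≤ S) (he1 : 1 ≤ e) (hA0 : 0 ≤ A) (hM : A ≤ M)
    (k5 : -(C * S * e) ≤ TK - M) (k6 : TL - M ≤ C * S * e)
    (hle : d * TK - TL ≤ 6 * S ^ 2 + S * (2 * Zc)) : A ≤ (6 + 2 * Zc + 2 * C) * S ^ 2 * e := by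
  have k7 : 0 ≤ C * S * e := by positivity
  have k8 : d * (M - C * S * e) ≤ d * TK :=
    mul_le_mul_of_nonneg_left (by linarith) (by linarith)
  have k10 : 1 * M ≤ (d - 1) * M := mul_le_mul_of_nonneg_right (by linarith) (by linarith)
  have k11 : (d + 1) * (C * S * e) ≤ 2 * S * (C * S * e) :=
    mul_le_mul_of_nonneg_right (by linarith) k7
  have k12 : A ≤ 6 * S ^ 2 + S * (2 * Zc) + 2 * S * (C * S * e) := by linarith
  have k13 : 6 * S ^ 2 ≤ 6 * S ^ 2 * e := le_mul_of_one_le_right (by positivity) he1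
  have k14 : S * (2 * Zc) ≤ S ^ 2 * e * (2 * Zc) := by
    refine mul_le_mul_of_nonneg_right ?_ (by linarith)
    nlinarith
  linarith

theorem term_le {x y w lg S : ℝ} {n : ℕ} {E : Finset ℕ} (hw0 : 0 ≤ w) (hw2 : w ≤ 2)
    (hl0 : 0 ≤ lg) (hy0 : 0 ≤ y) (hx : x ≤ S) (hS : 0 ≤ S) (h1 : n ∈ E → lg ≤ S)
    (h2 : n ∉ E → lg * w ≤ 2 * (1 / (n : ℝ) ^ 2) ∨ x ≤ y) :
    x * (lg * w) - y * (lg * w) ≤
      (if n ∈ E then 2 * S ^ 2 else 0) + S * (2 * (1 / (n : ℝ) ^ 2)) := by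
  have q0 : 0 ≤ lg * w := by positivity
  have q1 : x * (lg * w) ≤ S * (lg * w) := mul_le_mul_of_nonneg_right hx q0
  have q2 : 0 ≤ S * (2 * (1 / (n : ℝ) ^ 2)) := by positivity
  have q3 : 0 ≤ y * (lg * w) := by positivity
  split_ifs with hnE
  · have k1 : lg * w ≤ S * 2 := mul_le_mul (h1 hnE) hw2 hw0 hS
    have k2 := mul_le_mul_of_nonneg_left k1 hS
    linarith
  · rcases h2 hnE with h | h
    · have k2 := mul_le_mul_of_nonneg_left h hS
      linarith
    · have k2 := mul_le_mul_of_nonneg_right h q0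
      linarith

theorem exists_nonsplit {θ : ℝ} (h1 : 3 / 4 ≤ θ) (h2 : θ < 1) (hC : HCONT) (hB : HBD)
    (hE : EXPLOG) (hN : NONVAN θ) : ∃ (C : ℝ) (N : ℕ), 1 ≤ C ∧
      ∀ (K L : Type) [Field K] [NumberField K] [IsTotallyComplex K] [Field L] [NumberField L]
        [IsTotallyComplex L] (d : ℕ) (S : ℝ) (E : Finset ℕ), 2 ≤ d → size K ≤ S → size L ≤ S →
        (d : ℝ) * Module.finrank ℚ K ≤ S → E.card ≤ 3 → (∀ n ∈ E, Real.log n ≤ S) →
        ∃ l : ℕ, l.Prime ∧ (l : ℝ) ≤ (C * S ^ 2) ^ N ∧ l ∉ E ∧ aK L l < d * aK K l := by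
  obtain ⟨C, hC0, H⟩ := field_asym h1 h2 hC hB hE hN
  have hZ := Cheb.Z_nonneg
  obtain ⟨σ, hσ⟩ : ∃ σ : ℝ, σ = (1 + θ) / 2 := ⟨_, rfl⟩
  rw [← hσ] at H
  have hσ1 : 0 < 1 - σ := by linarith
  have hσ2 : 1 - σ ≤ 1 := by linarith
  obtain ⟨D, hD⟩ : ∃ D : ℝ, D = 6 + 2 * Cheb.Z + 2 * C := ⟨_, rfl⟩
  have hD1 : 1 ≤ D := by linarith
  have he : (1 : ℝ) < Real.exp 24 := Real.one_lt_exp_iff.2 (by norm_num)
  obtain ⟨N, hN⟩ := exists_nat_ge (2 / (1 - σ))
  refine ⟨D * Real.exp 24, N, one_le_mul_of_one_le_of_one_le hD1 he.le,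
    fun K L _ _ _ _ _ _ d S E hd hK hL hdS hEc hEl => ?_⟩
  by_contra hcon
  push Not at hcon
  have hn1 : (1 : ℝ) ≤ Module.finrank ℚ K := by exact_mod_cast Module.finrank_pos
  have hd2 : (2 : ℝ) ≤ d := by exact_mod_cast hd
  have hdS' : (d : ℝ) ≤ S := (le_mul_of_one_le_right (by linarith) hn1).trans hdS
  have hS1 : 1 ≤ S := by linarith
  have hW : 1 ≤ D * S ^ 2 := one_le_mul_of_one_le_of_one_le hD1 (one_le_pow₀ hS1)
  obtain ⟨u, hu⟩ : ∃ u : ℝ, u = (Real.log (D * S ^ 2) + 24) / (1 - σ) := ⟨_, rfl⟩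
  have hlog : 0 ≤ Real.log (D * S ^ 2) := Real.log_nonneg hW
  have hu24 : 24 ≤ u := by
    rw [hu, le_div_iff₀ hσ1]
    linarith
  have hexp : Real.exp (u * (1 - σ)) = D * Real.exp 24 * S ^ 2 := by
    rw [hu, div_mul_cancel₀ _ hσ1.ne', Real.exp_add, Real.exp_log (by linarith)]
    ring
  have hY : Real.exp (2 * u) ≤ (D * Real.exp 24 * S ^ 2) ^ N := by
    rw [← hexp, ← Real.exp_nat_mul]
    refine Real.exp_le_exp.2 ?_
    rw [div_le_iff₀ hσ1] at hN
    have := mul_le_mul_of_nonneg_right hN (show 0 ≤ u by linarith)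
    linarith
  obtain ⟨TK, hK1, hK2⟩ := H K u (by linarith)
  obtain ⟨TL, hL1, hL2⟩ := H L u (by linarith)
  have hs1 : HasSum (fun n : ℕ => if n ∈ E then 2 * S ^ 2 else 0) (∑ n ∈ E, 2 * S ^ 2) := by
    have := hasSum_sum_of_ne_finset_zero (L := SummationFilter.unconditional ℕ)
      (f := fun n : ℕ => if n ∈ E then 2 * S ^ 2 else 0) (s := E) fun n hn => if_neg hn
    rwa [Finset.sum_congr rfl fun n hn => if_pos hn] at this
  have hs2 : HasSum (fun n : ℕ => S * (2 * (1 / (n : ℝ) ^ 2))) (S * (2 * Cheb.Z)) :=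
    (((Real.summable_one_div_nat_pow.2 one_lt_two).hasSum).mul_left 2).mul_left S
  have hterm : ∀ n : ℕ, (d : ℝ) * (Real.log n * pc K n * wt u n) - Real.log n * pc L n * wt u n ≤
      (if n ∈ E then 2 * S ^ 2 else 0) + S * (2 * (1 / (n : ℝ) ^ 2)) := by
    intro n
    have p1 : (d : ℝ) * pc K n ≤ S :=
      (mul_le_mul_of_nonneg_left (pc_le K n) (by linarith)).trans hdS
    have := term_le (E := E) (n := n) (wt_nonneg u n) (wt_le u n) (Real.log_natCast_nonneg n)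
      (pc_nonneg L n) p1 (by linarith) (hEl n) fun hnE => by
        by_cases hY' : Real.exp (2 * u) < n
        · exact Or.inl (log_mul_wt_le hu24 hY')
        · right
          unfold pc
          split_ifs with hp
          · exact_mod_cast hcon n hp ((not_lt.1 hY').trans hY) hnE
          · simp
    refine le_trans (le_of_eq ?_) this
    ring
  have hs3 : HasSum (fun n : ℕ => (d : ℝ) * (Real.log n * pc K n * wt u n) -
      Real.log n * pc L n * wt u n) (d * TK - TL) := (hK1.mul_left (d : ℝ)).sub hL1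
  have hs4 : HasSum (fun n : ℕ => (if n ∈ E then 2 * S ^ 2 else 0) + S * (2 * (1 / (n : ℝ) ^ 2)))
      (∑ n ∈ E, 2 * S ^ 2 + S * (2 * Cheb.Z)) := hs1.add hs2
  have hle : d * TK - TL ≤ ∑ n ∈ E, 2 * S ^ 2 + S * (2 * Cheb.Z) := hasSum_le hterm hs3 hs4
  · have k1 : ∑ n ∈ E, 2 * S ^ 2 ≤ 6 * S ^ 2 := by
      rw [Finset.sum_const, nsmul_eq_mul]
      have h3 : (E.card : ℝ) ≤ 3 := by exact_mod_cast hEc
      have := mul_le_mul_of_nonneg_right h3 (show 0 ≤ 2 * S ^ 2 by positivity)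
      linarith
    have hM := le_mainTerm (u := u) (by linarith)
    have he1 : 1 ≤ Real.exp (u * σ) := Real.one_le_exp (mul_nonneg (by linarith) (by linarith))
    have k2 : Real.exp u = D * S ^ 2 * Real.exp (u * σ) * Real.exp 24 := by
      rw [show u = u * (1 - σ) + u * σ by ring, Real.exp_add, hexp,
        show u * (1 - σ) + u * σ = u by ring]
      ring
    have k3 : C * size K * Real.exp (u * σ) ≤ C * S * Real.exp (u * σ) := by gcongr
    have k4 : C * size L * Real.exp (u * σ) ≤ C * S * Real.exp (u * σ) := by gcongr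
    have k15 := final_ineq hC0 hZ hS1 hd2 hdS' he1 (Real.exp_pos u).le hM
      (abs_le.1 (hK2.trans k3)).1 (abs_le.1 (hL2.trans k4)).2 (by linarith)
    rw [← hD, k2] at k15
    have k17 : 0 < D * S ^ 2 * Real.exp (u * σ) := by positivity
    have := mul_lt_mul_of_pos_left he k17
    linarith

end Vale.Agent.P319.NT
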