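import Vale.Agent.P016Z.Cheb.Kum
import Mathlib.NumberTheory.NumberField.Cyclotomic.Embeddings
import Mathlib.FieldTheory.PrimitiveElement
import Mathlib.Analysis.Complex.ExponentialBounds

/-!
P319, number theory: the fields `ℚ(ζ)` and `ℚ(ζ, p^(1/r))`, with `ζ` of order `2 r`.
-/

namespace Vale.Agent.P319.NT

open NumberField Polynomial Vale.Agent.P016Z

theorem irr_rat {r p : ℕ} (hr : r.Prime) (hp : p.Prime) : Irreducible (X ^ r - C (p : ℚ)) := by
  refine X_pow_sub_C_irreducible_of_prime hr fun b hb => ?_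
  have hint : IsIntegral ℤ b := ⟨X ^ r - C (p : ℤ), monic_X_pow_sub_C _ hr.ne_zero, by
    rw [eval₂_sub, eval₂_C, eval₂_X_pow, hb]; simp⟩
  obtain ⟨c, rfl⟩ := IsIntegrallyClosed.isIntegral_iff.1 hint
  have h1 : c ^ r = p := by
    rw [eq_intCast] at hb
    exact_mod_cast hb
  have h2 : c.natAbs ^ r = p := by
    have := congrArg Int.natAbs h1
    rwa [Int.natAbs_pow, Int.natAbs_natCast] at this
  exact hr.one_lt.ne' ((Nat.Prime.pow_eq_iff hp).1 h2).2

theorem not_pow_cyc {r p : ℕ} (hr : r.Prime) (hp : p.Prime) (K : Type) [Field K] [NumberField K]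
    [IsCyclotomicExtension {2 * r} ℚ K] (b : K) : b ^ r ≠ p := by
  intro hb
  have : NeZero (2 * r) := ⟨by have := hr.pos; omega⟩
  have hmin : X ^ r - C (p : ℚ) = minpoly ℚ b :=
    minpoly.eq_of_irreducible_of_monic (irr_rat hr hp) (by simp [hb])
      (monic_X_pow_sub_C _ hr.ne_zero)
  have hdeg : (minpoly ℚ b).natDegree = r := by rw [← hmin, natDegree_X_pow_sub_C]
  have hfr : Module.finrank ℚ K = (2 * r).totient := IsCyclotomicExtension.Rat.finrank (2 * r) K
  rcases hr.eq_two_or_odd' with rfl | hodd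
  · have htop : IntermediateField.adjoin ℚ {b} = ⊤ :=
      (Field.primitive_element_iff_minpoly_natDegree_eq ℚ b).2 (by rw [hdeg, hfr]; rfl)
    have htop' : Algebra.adjoin ℚ {b} = ⊤ := by
      rw [← IntermediateField.adjoin_simple_toSubalgebra_of_isAlgebraic
        (Algebra.IsAlgebraic.isAlgebraic b), htop, IntermediateField.top_toSubalgebra]
    have : IsTotallyComplex K := IsCyclotomicExtension.Rat.isTotallyComplex (n := 2 * 2) K (by norm_num)
    obtain ⟨φ⟩ : Nonempty (K →+* ℂ) := inferInstance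
    refine IsTotallyComplex.complexEmbedding_not_isReal φ (ComplexEmbedding.isReal_iff.2 ?_)
    have h1 : (φ b) ^ 2 = p := by rw [← map_pow, hb, map_natCast]
    have h2 : (φ b).im = 0 := by
      have k1 := congrArg Complex.re h1
      have k2 := congrArg Complex.im h1
      simp only [sq, Complex.mul_re, Complex.mul_im, Complex.natCast_re, Complex.natCast_im] at k1 k2
      have k3 : (0 : ℝ) < p := by exact_mod_cast hp.pos
      by_contra hne
      have k4 : (φ b).re = 0 := by
        have : (φ b).re * (φ b).im = 0 := by linarith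
        exact (mul_eq_zero.1 this).resolve_right hne
      rw [k4] at k1
      nlinarith [mul_self_nonneg (φ b).im]
    have h3 : (ComplexEmbedding.conjugate φ).toRatAlgHom = φ.toRatAlgHom :=
      AlgHom.ext_of_adjoin_eq_top htop' fun x hx => by
        rw [Set.mem_singleton_iff.1 hx]
        simp only [RingHom.toRatAlgHom_apply, ComplexEmbedding.conjugate_coe_eq]
        exact Complex.conj_eq_iff_im.2 h2
    exact RingHom.ext fun x => AlgHom.congr_fun h3 x
  · have h1 : r ∣ Module.finrank ℚ K :=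
      hdeg ▸ minpoly.degree_dvd (Algebra.IsIntegral.isIntegral b)
    rw [hfr, Nat.totient_mul (Nat.coprime_two_left.2 hodd), Nat.totient_two, one_mul,
      Nat.totient_prime hr] at h1
    have := Nat.le_of_dvd (by have := hr.two_le; omega) h1
    have := hr.pos
    omega

theorem dvd_of_aK_ne {K : Type} [Field K] [NumberField K] {n l : ℕ} [NeZero n] {ζ : K}
    (hζ : IsPrimitiveRoot ζ n) (hl : l.Prime) (hc : l.Coprime n) (h : aK K l ≠ 0) : n ∣ l - 1 := by
  rw [aK, Nat.card_ne_zero] at h
  obtain ⟨⟨P, hP⟩⟩ := h.1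
  have : P.IsPrime := Ideal.isPrime_of_irreducible_absNorm (hP ▸ (hl : Irreducible l))
  have hP0 : P ≠ ⊥ := fun e => hl.ne_zero (by rw [← hP, e, Ideal.absNorm_bot])
  have : P.IsMaximal := Ring.DimensionLEOne.maximalOfPrime hP0 inferInstance
  have h1 := hζ.toInteger_isPrimitiveRoot.idealQuotient_mk (I := P)
    (by rw [hP]; exact hl.one_lt.ne') (by rw [hP]; exact hc)
  let _ := Ideal.Quotient.field P
  have := Fintype.ofFinite (𝓞 K ⧸ P)
  have h2 := h1.dvd_of_pow_eq_one _
    (FiniteField.pow_card_sub_one_eq_one _ (h1.ne_zero (NeZero.ne n)))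
  have h4 : Fintype.card (𝓞 K ⧸ P) = l := by
    rw [← hP, Ideal.absNorm_apply, Submodule.cardQuot_apply, Nat.card_eq_fintype_card]
  rwa [h4] at h2

theorem size_cyc {n : ℕ} (hn : 1 < n) (K : Type) [Field K] [NumberField K]
    [IsCyclotomicExtension {n} ℚ K] : size K ≤ (3 + 2 * n) * (n : ℝ) ^ 4 := by
  have : NeZero n := ⟨by omega⟩
  have hζ := IsCyclotomicExtension.zeta_spec n ℚ K
  have h2 : (2 : ℤ) ≤ |(2 : ℤ) ^ n| := by
    rw [abs_of_pos (by positivity)]
    calc (2 : ℤ) = 2 ^ 1 := by norm_num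
      _ ≤ 2 ^ n := pow_le_pow_right₀ (by norm_num) hn.le
  have hadj : Algebra.adjoin ℚ {β : K | β ^ n = ((2 : ℤ) ^ n : ℤ)} = ⊤ := by
    rw [eq_top_iff, ← IsCyclotomicExtension.adjoin_primitive_root_eq_top hζ,
      Algebra.adjoin_le_iff, Set.singleton_subset_iff]
    have e : IsCyclotomicExtension.zeta n ℚ K =
        (1 / 2 : ℚ) • (2 * IsCyclotomicExtension.zeta n ℚ K) := by
      rw [Algebra.smul_def]
      simp
    rw [e]
    refine Subalgebra.smul_mem _ (Algebra.subset_adjoin ?_) _
    simp [mul_pow, hζ.pow_eq_one]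
  refine (kum_size h2 hn hadj).trans ?_
  have h3 : Real.log |(((2 : ℤ) ^ n : ℤ) : ℝ)| ≤ n := by
    push_cast
    rw [abs_of_pos (by positivity), Real.log_pow]
    have : Real.log 2 ≤ 1 := by linarith [Real.log_two_lt_d9]
    nlinarith [(Nat.cast_nonneg n : (0 : ℝ) ≤ n)]
  gcongr

/-- The two fields. -/
theorem exists_fields {r p : ℕ} (hr : r.Prime) (hp : p.Prime) :
    ∃ (K L : Type) (_ : Field K) (_ : NumberField K) (_ : IsTotallyComplex K) (_ : Field L)
      (_ : NumberField L) (_ : IsTotallyComplex L) (d : ℕ), 2 ≤ d ∧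
      size K ≤ (3 + 4 * r) * (2 * r : ℝ) ^ 4 ∧ size L ≤ (3 + 4 * Real.log p) * (2 * r : ℝ) ^ 4 ∧
      d * Module.finrank ℚ K = Module.finrank ℚ L ∧
      ∀ l : ℕ, l.Prime → l ≠ 2 → l ≠ r → l ≠ p → aK L l < d * aK K l →
        2 * r ∣ l - 1 ∧ (p : ZMod l) ^ ((l - 1) / r) ≠ 1 := by
  have hr2 := hr.two_le
  have : NeZero (2 * r) := ⟨by omega⟩
  obtain ⟨K, _, _, hK⟩ : ∃ (K : Type) (_ : Field K) (_ : NumberField K),
      IsCyclotomicExtension {2 * r} ℚ K :=
    ⟨CyclotomicField (2 * r) ℚ, inferInstance, inferInstance, by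
      convert CyclotomicField.isCyclotomicExtension (2 * r) ℚ
      · rfl
      · exact Subsingleton.elim _ _⟩
  have hKc : IsTotallyComplex K := IsCyclotomicExtension.Rat.isTotallyComplex (n := 2 * r) K (by omega)
  have hirr : Irreducible (X ^ r - C (p : K)) :=
    X_pow_sub_C_irreducible_of_prime hr (not_pow_cyc hr hp K)
  obtain ⟨f, hf⟩ : ∃ f : K[X], f = X ^ r - C (p : K) := ⟨_, rfl⟩
  rw [← hf] at hirr
  have hdeg : f.natDegree = r := by rw [hf]; exact natDegree_X_pow_sub_C
  obtain ⟨L, _, _, hL⟩ : ∃ (L : Type) (_ : Field L) (_ : Algebra K L), IsSplittingField K L f :=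
    ⟨f.SplittingField, inferInstance, _, IsSplittingField.splittingField f⟩
  have : FiniteDimensional K L := IsSplittingField.finiteDimensional L f
  have : NumberField L := NumberField.of_module_finite K L
  have hLc : IsTotallyComplex L := isTotallyComplex_of_algebra K L
  have : IsGalois K L := IsGalois.of_separable_splitting_field hirr.separable
  have hroot : ∀ β : L, β ∈ f.rootSet L → β ^ r = p := by
    intro β hβ
    have := (mem_rootSet.1 hβ).2
    rw [hf, map_sub, map_pow, aeval_X, aeval_C, map_natCast, sub_eq_zero] at this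
    exact this
  have hadj : Algebra.adjoin K {β : L | β ^ r = ((p : ℤ) : L)} = ⊤ := by
    rw [eq_top_iff, ← IsSplittingField.adjoin_rootSet L f]
    exact Algebra.adjoin_mono fun β hβ => by simpa using hroot β hβ
  have hζ := IsCyclotomicExtension.zeta_spec (2 * r) ℚ K
  set ζ := IsCyclotomicExtension.zeta (2 * r) ℚ K with hζdef
  have hd : r ∣ Module.finrank K L := hdeg ▸ hirr.natDegree_dvd_finrank (IsSplittingField.splits L f)
  have hp0 : (p : L) ≠ 0 := by exact_mod_cast hp.ne_zero
  have hadjQ : Algebra.adjoin ℚ {β : L | β ^ (2 * r) = (((p : ℤ) ^ 2 : ℤ) : L)} = ⊤ := by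
    set A := Algebra.adjoin ℚ {β : L | β ^ (2 * r) = (((p : ℤ) ^ 2 : ℤ) : L)} with hA
    have hmem : ∀ β : L, β ^ r = p → β ∈ A := fun β hβ =>
      Algebra.subset_adjoin (by simp [pow_mul', hβ])
    obtain ⟨β, hβ⟩ : (f.rootSet L).Nonempty := by
      have hcard := card_rootSet_eq_natDegree hirr.separable (IsSplittingField.splits L f)
      have : Nonempty (f.rootSet L) := Fintype.card_pos_iff.1 (by rw [hcard, hdeg]; omega)
      exact Set.nonempty_coe_sort.1 this
    have hβ' := hroot β hβ
    have hζA : algebraMap K L ζ ∈ A := by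
      have h1 : algebraMap K L ζ * β ∈ A := Algebra.subset_adjoin (by
        simp only [Set.mem_ofPred_eq]
        rw [mul_pow, ← map_pow, hζ.pow_eq_one, map_one, one_mul, pow_mul', hβ']
        simp)
      have e : algebraMap K L ζ = (1 / p : ℚ) • (algebraMap K L ζ * β * β ^ (r - 1)) := by
        rw [mul_assoc, ← pow_succ', Nat.sub_add_cancel hr.pos, hβ', Algebra.smul_def]
        simp only [one_div, map_inv₀, map_natCast]
        field_simp
      rw [e]
      exact A.smul_mem (A.mul_mem h1 (A.pow_mem (hmem β hβ') _)) _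
    have hKA : ∀ x : K, algebraMap K L x ∈ A := by
      intro x
      have hx : x ∈ Algebra.adjoin ℚ {ζ} := by
        rw [IsCyclotomicExtension.adjoin_primitive_root_eq_top hζ]
        exact Algebra.mem_top
      induction hx using Algebra.adjoin_induction with
      | mem y hy => rw [Set.mem_singleton_iff.1 hy]; exact hζA
      | algebraMap q => rw [← IsScalarTower.algebraMap_apply]; exact A.algebraMap_mem q
      | add y z _ _ h1 h2 => rw [map_add]; exact A.add_mem h1 h2
      | mul y z _ _ h1 h2 => rw [map_mul]; exact A.mul_mem h1 h2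
    rw [eq_top_iff]
    rintro x -
    have hx : x ∈ Algebra.adjoin K {β : L | β ^ r = ((p : ℤ) : L)} := by
      rw [hadj]
      exact Algebra.mem_top
    induction hx using Algebra.adjoin_induction with
    | mem y hy => exact hmem y (by simpa using hy)
    | algebraMap q => exact hKA q
    | add y z _ _ h1 h2 => exact A.add_mem h1 h2
    | mul y z _ _ h1 h2 => exact A.mul_mem h1 h2
  refine ⟨K, L, inferInstance, inferInstance, hKc, inferInstance, inferInstance, hLc,
    Module.finrank K L, hr2.trans (Nat.le_of_dvd Module.finrank_pos hd), ?_, ?_, ?_, ?_⟩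
  · have := size_cyc (n := 2 * r) (by omega) K
    push_cast at this
    linarith
  · have h2 : (2 : ℤ) ≤ |(p : ℤ) ^ 2| := by
      rw [abs_of_nonneg (by positivity)]
      have : (2 : ℤ) ≤ p := by exact_mod_cast hp.two_le
      nlinarith
    have := kum_size h2 (l := 2 * r) (by omega) hadjQ
    push_cast at this
    rw [abs_of_nonneg (by positivity), Real.log_pow] at this
    push_cast at this
    linarith
  · rw [mul_comm, Module.finrank_mul_finrank]
  · intro l hl h2 h3 h4 h5
    have hc : l.Coprime (2 * r) := Nat.Coprime.mul_right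
      ((Nat.coprime_primes hl Nat.prime_two).2 h2) ((Nat.coprime_primes hl hr).2 h3)
    have h6 : 2 * r ∣ l - 1 := dvd_of_aK_ne hζ hl hc fun e => by
      rw [e] at h5
      omega
    refine ⟨h6, fun e => h5.ne ?_⟩
    refine aK_eq_of_radical (a := p) hl (Dvd.dvd.trans (Dvd.intro_left 2 rfl) h6) ?_
      (by simpa using e) hadj
    intro h7
    exact h4 ((Nat.prime_dvd_prime_iff_eq hl hp).1 (by exact_mod_cast h7))

end Vale.Agent.P319.NT
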