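import Vale.Agent.P319.NT.Defs
import Vale.Agent.P319.NT.Compare
import Vale.Agent.P319.NT.Field

/-!
P319, number theory: the small auxiliary prime, from the zero free half plane.
-/

namespace Vale.Agent.P319.NT

open NumberField Vale.Agent.P016Z

theorem smallPrime_of {θ : ℝ} (h1 : 3 / 4 ≤ θ) (h2 : θ < 1) (hC : HCONT) (hB : HBD)
    (hE : EXPLOG) (hN : NONVAN θ) : SmallPrime := by
  classical
  obtain ⟨C, N, hC1, H⟩ := exists_nonsplit h1 h2 hC hB hE hN
  obtain ⟨c, hc⟩ := exists_nat_ge C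
  refine ⟨(c + 18) * N, fun r p hr hp => ?_⟩
  obtain ⟨K, L, _, _, _, _, _, _, d, hd, hK, hL, hdK, hl⟩ := exists_fields hr hp
  have hr2 : (2 : ℝ) ≤ r := by exact_mod_cast hr.two_le
  have hp1 : (1 : ℝ) ≤ p := by exact_mod_cast hp.one_le
  have hlp : 0 ≤ Real.log p := Real.log_nonneg hp1
  have hw : (1 : ℝ) ≤ (2 * r : ℝ) ^ 4 := one_le_pow₀ (by linarith)
  obtain ⟨S, hS⟩ : ∃ S : ℝ, S = (3 + 4 * r + 4 * Real.log p) * (2 * r : ℝ) ^ 4 := ⟨_, rfl⟩
  have hS1 : 3 + 4 * r + 4 * Real.log p ≤ S := by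
    rw [hS]
    exact le_mul_of_one_le_right (by linarith) hw
  have hKS : size K ≤ S := by
    rw [hS]
    exact hK.trans (mul_le_mul_of_nonneg_right (by linarith) (by linarith))
  have hLS : size L ≤ S := by
    rw [hS]
    exact hL.trans (mul_le_mul_of_nonneg_right (by linarith) (by linarith))
  obtain ⟨l, k1, k2, k3, k4⟩ := H K L d S {2, r, p} hd hKS hLS
    (by
      have : ((d * Module.finrank ℚ K : ℕ) : ℝ) = Module.finrank ℚ L := by rw [hdK]
      push_cast at this
      rw [this]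
      exact (Cheb.finrank_le_size L).trans hLS)
    Finset.card_le_three
    (by
      intro n hn
      simp only [Finset.mem_insert, Finset.mem_singleton] at hn
      rcases hn with rfl | rfl | rfl
      · have := Real.log_le_sub_one_of_pos (show (0 : ℝ) < (2 : ℕ) by norm_num)
        push_cast at this ⊢
        linarith
      · have := Real.log_le_sub_one_of_pos (show (0 : ℝ) < n by linarith)
        linarith
      · linarith)
  simp only [Finset.mem_insert, Finset.mem_singleton, not_or] at k3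
  obtain ⟨m1, m2⟩ := hl l k1 k3.1 k3.2.1 k3.2.2 k4
  refine ⟨l, k1, ?_, k3.2.1, k3.2.2, m1, m2⟩
  obtain ⟨B, hB⟩ : ∃ B : ℝ, B = ((r + Nat.size p : ℕ) : ℝ) := ⟨_, rfl⟩
  have hsz : 2 ≤ Nat.size p := Nat.lt_size.2 (by simpa using hp.two_le)
  have hsz' : (2 : ℝ) ≤ Nat.size p := by exact_mod_cast hsz
  have hlog : Real.log p ≤ Nat.size p := by
    have q1 : (p : ℝ) ≤ 2 ^ Nat.size p := by exact_mod_cast (Nat.lt_size_self p).le
    refine (Real.log_le_log (by linarith) q1).trans ?_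
    rw [Real.log_pow]
    have : Real.log 2 ≤ 1 := by linarith [Real.log_two_lt_d9]
    exact mul_le_of_le_one_right (by linarith) this
  have hB' : B = r + Nat.size p := by rw [hB]; push_cast; rfl
  have hB4 : 4 ≤ B := by linarith
  have hSB : S ≤ B ^ 9 := by
    rw [hS]
    have q1 : 3 + 4 * r + 4 * Real.log p ≤ 5 * B := by linarith
    have q2 : (2 * r : ℝ) ^ 4 ≤ (2 * B) ^ 4 := by gcongr; linarith
    have q3 : (4 : ℝ) ^ 4 ≤ B ^ 4 := by gcongr
    calc (3 + 4 * r + 4 * Real.log p) * (2 * r : ℝ) ^ 4 ≤ 5 * B * (2 * B) ^ 4 :=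
          mul_le_mul q1 q2 (by positivity) (by positivity)
      _ = 80 * B ^ 5 := by ring
      _ ≤ B ^ 4 * B ^ 5 := by gcongr; linarith
      _ = B ^ 9 := by ring
  have hCB : C ≤ B ^ c := by
    refine hc.trans ?_
    have q1 : (c : ℝ) ≤ 2 ^ c := by exact_mod_cast (Nat.lt_two_pow_self (n := c)).le
    exact q1.trans (by gcongr; linarith)
  have hfin : (l : ℝ) ≤ B ^ ((c + 18) * N) := by
    refine k2.trans ?_
    rw [pow_mul, pow_add]
    have hS0 : 0 ≤ S := by linarith
    have q1 : S ^ 2 ≤ B ^ 18 := by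
      calc S ^ 2 ≤ (B ^ 9) ^ 2 := by gcongr
        _ = B ^ 18 := by ring
    gcongr
  rw [hB] at hfin
  exact_mod_cast hfin

end Vale.Agent.P319.NT
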